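import Vale.Agent.P275HT.Abs
import Vale.Agent.P275HS.Spc

/-!
# P275, block HT: the `n`-th power of the transformation at the pole is homotopic to the identity
-/

set_option linter.unusedSectionVars false

open scoped Topology Matrix.Norms.Operator unitInterval
open Set Filter Metric Matrix

noncomputable section

namespace Vale.Agent.P275HT

open Vale.Agent.P275GC Vale.Agent.P275GC.At Vale.Agent.P275MO Vale.Agent.P275MB Vale.Agent.P275HE
open Vale.Agent.P275HS
open Vale.Agent.P275NA (Fm Cy Mn)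

variable {C : Type} [TopologicalSpace C] {n : ℕ} {A : At C} {l : Cy A ℂ} {τ : Ty n}
  {o : Fin n} {j : Fin τ.m} {κ : ℝ} {r : ℝ} {h1 : 1 < r} {h2 : r ≤ A.R} {m₀ : Mod A l τ}
  [T2Space C]

/-- the transformations at the points of the spectral curve of `m₀` -/
theorem fa (ht : HTy τ o j κ) (ps : PSI A l τ o j) (hm : m₀ ∈ Om A l τ j) (h0 : m₀.lam = 0)
    (g : Good (A.res r h1 h2) l m₀.rep.1) :
    Fa (A.res r h1 h2) (fun i k w => A.d i k w * (A.res r h1 h2).ox m₀.x m₀.x i k w)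
      (fun i w => (bz (A.res r h1 h2) m₀.rep.1 i w).charpoly) m₀.x (m₀.rep.1.R o o) (Fb m₀)
      fun i w s => psi o ((A.e i).symm w) (tv (A.res r h1 h2) m₀.x i w s) where
  maps i w s a m b := fb_trans b (ps.fib m (om_fb hm b) b.1 _ _ _
    ((ps.rel m (om_fb hm b) b.1 _ _ (adm_of ht g h0 b a.1 a.2.1 a.2.2) _).2 rfl))
  cont i w s hw hs a := by
    have c : Continuous fun p : I × Fb m₀ => w p.1 := hw.comp continuous_fst
    refine ps.cont (I × Fb m₀) (fun p => p.2.1) (fun p => (A.e i).symm (w p.1))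
      (fun p => tv (A.res r h1 h2) m₀.x i (w p.1) (s p.1)) m₀.x
      (continuous_subtype_val.comp continuous_snd)
      ((A.e i).continuousOn_symm.comp_continuous c fun p => ?_)
      (fun p => ⟨om_fb hm p.2.2, p.2.2.1, p.2.2.2.1,
        adm_of ht g h0 p.2.2 (a p.1).1 (a p.1).2.1 (a p.1).2.2⟩)
      fun k => cont_tv (A := A) (h1 := h1) (h2 := h2) (T := I × Fb m₀) (w := fun p => w p.1)
        (s := fun p => s p.1) c (hs.comp continuous_fst) (fun p => (a p.1).1) m₀.x i k
    exact (A.tgt i).symm ▸ ball_subset_ball h2 (a p.1).1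
  inv i k z hz b t := funext fun m => by
    have e : (A.e k).symm (A.tr i k z) = (A.e i).symm z := symm_tr (res_O.1 hz).1
    refine (psi_congr (fun k' a => tv_tr hz b a) m).trans ?_
    exact congrArg (fun y => psi (A := A) o y (tv (A.res r h1 h2) m₀.x k (A.tr i k z) t) m) e.symm

/-- **the `n`-th power of the transformation is homotopic to the identity on the fibres** -/
theorem hot {d : ℤ} (hS : Std A l n d) (ht : HTy τ o j κ) (ps : PSI A l τ o j)
    (cm : CMPS A l τ o j) : HOT A l τ o j := by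
  intro m₀ hm h0
  have := hS.conn
  obtain ⟨⟨r, h1, h2, g, -⟩, hq⟩ := m₀.rep.2
  obtain ⟨i, a, b⟩ := A.cov m₀.x
  have a' : m₀.rep.1.x ∈ ((A.res r h1 h2).e i).source := by
    rw [rep_x]
    exact ⟨a, mem_ball_zero_iff.2 (b.trans h1)⟩
  have S := spc_of ht g ((rep_lam m₀).trans h0) hq (eta_ne hm) a'
  have sp := smp_pole ht g hq (eta_ne hm) a'
  have F := fa ht ps hm h0 g
  have of := off_ev a'
  rw [rep_x] at S sp of
  have nb : ∀ᶠ v in 𝓝[≠] (A.e i m₀.x), ‖v‖ < 1 := mem_nhdsWithin_of_mem_nhds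
    ((isOpen_lt continuous_norm continuous_const).mem_nhds b)
  obtain ⟨v, ⟨t, ti, tq⟩, v1, v2⟩ := ((S.red S.mem sp i S.mem).and (nb.and of)).exists
  have v3 : v ∈ ball (0 : ℂ) A.R := ball_subset_ball h2 v2.1
  have ad : ∀ k, Ad (A.res r h1 h2) (fun i w => (bz (A.res r h1 h2) m₀.rep.1 i w).charpoly) m₀.x
      (m₀.rep.1.R o o) i v (t k) := fun k =>
    ⟨v2.1, (congrArg (fun p => Smp p (t k)) tq).mpr ((smp_enum t _).2 ⟨k, rfl, fun _ e => ti e⟩),
      fun e => (v2.2 e).elim⟩
  have e0 : (A.e i).symm (A.e i m₀.x) = m₀.x := (A.e i).left_inv a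
  have H : ∀ k, Hm (Fb m₀) (phi o) (psi o ((A.e i).symm v)
      (tv (A.res r h1 h2) m₀.x i v (t k))) := fun k =>
    (F.hm S ⟨S.mem, sp, fun _ => rfl⟩ (ad k)).congr (fun m c => by
      refine (psi_congr (t' := fun _ => m.rep.1.R o o) (fun k' _ => ?_) m).trans ?_
      · rw [Roo_fb ht c]
        exact res_tv0 e0
      · rw [phi, c.2.1]
        exact congrArg (fun y => psi o y (fun _ => m.rep.1.R o o) m) e0) fun _ _ => rfl
  obtain ⟨G, G', p1, p2, p3⟩ := hm_cp H n le_rfl
  refine ⟨G, p1, ?_⟩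
  obtain rfl : G' = ContinuousMap.id _ := ContinuousMap.ext fun m => Subtype.ext <| by
    have sg := sg_ne v2
    have ts : ∀ k, tv (A.res r h1 h2) m₀.x i v (t k) i = t k / (A.res r h1 h2).sg m₀.x m₀.x i v :=
      fun k => tv_self v2
    refine (p2 m).trans (cm (fun k => cp _ k m.1) ((A.e i).symm v)
      (fun k => tv (A.res r h1 h2) m₀.x i v (t k)) i (om_fb hm m.2) m.2.1
      (fun e => v2.2 (e.trans m.2.2.1)) (map_tgt v3) (by rwa [rinv v3])
      (fun k k' e => ti ?_) (fun k => ?_) fun k => ?_)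
    · simp only [ts] at e
      exact (div_left_inj' sg).1 e
    · have c : Smp (bz (A.res r h1 h2) m₀.rep.1 i v).charpoly (t k) := (ad k).2.1
      have c' : v ∈ off (A.res r h1 h2) m₀.rep.1.x i := by rwa [rep_x]
      rw [bz_off c', rep_x, ← mul_div_cancel₀ (t k) sg, smp_smul sg] at c
      rw [rinv v3, ts]
      exact (congrArg (fun p => Smp p _) (m.2.2.2.2 i v v1 v2.2)).mpr c
    · have c := (hm_cp H k k.2.le).maps m.2
      rw [cp_succ]
      exact (ps.rel _ (om_fb hm c) c.1 _ _ (adm_of ht g h0 c (ad k).1 (ad k).2.1 (ad k).2.2) _).2 rfl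
  exact p3

end Vale.Agent.P275HT
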