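import Vale.Agent.P275HE.Psi
import Mathlib.Topology.Homotopy.Basic

/-!
# P275, block HT: maps which depend on a point of a spectral curve are homotopic
-/

set_option linter.unusedSectionVars false

open scoped Topology unitInterval
open Set Filter Metric Polynomial

noncomputable section

namespace Vale.Agent.P275HT

open Vale.Agent.P275GC Vale.Agent.P275GC.At Vale.Agent.P275HE

variable {M : Type} [TopologicalSpace M] {F : Set M} {f f' f'' g g' : M → M}

/-- `f` and `f'` induce homotopic self-maps of `F` -/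
def Hm (F : Set M) (f f' : M → M) : Prop :=
  ∃ G G' : C(F, F), (∀ m, (G m).1 = f m) ∧ (∀ m, (G' m).1 = f' m) ∧ G.Homotopic G'

theorem Hm.symm (h : Hm F f f') : Hm F f' f := by
  obtain ⟨G, G', a, b, c⟩ := h
  exact ⟨G', G, b, a, c.symm⟩

theorem Hm.trans (h : Hm F f f') (h' : Hm F f' f'') : Hm F f f'' := by
  obtain ⟨G, G', a, b, c⟩ := h
  obtain ⟨K, K', a', b', c'⟩ := h'
  obtain rfl : G' = K := ContinuousMap.ext fun m => Subtype.ext ((b m).trans (a' m).symm)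
  exact ⟨G, K', a, b', c.trans c'⟩

theorem Hm.eq (h : Hm F f f') : Hm F f = Hm F f' :=
  funext fun _ => propext ⟨h.symm.trans, h.trans⟩

theorem Hm.comp (h : Hm F g g') (h' : Hm F f f') : Hm F (g ∘ f) (g' ∘ f') := by
  obtain ⟨G, G', a, b, c⟩ := h
  obtain ⟨K, K', a', b', c'⟩ := h'
  exact ⟨G.comp K, G'.comp K', fun m => (a _).trans (congrArg g (a' m)),
    fun m => (b _).trans (congrArg g' (b' m)), c.comp c'⟩

theorem Hm.congr (h : Hm F f f') (e : ∀ m ∈ F, f m = g m) (e' : ∀ m ∈ F, f' m = g' m) :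
    Hm F g g' := by
  obtain ⟨G, G', a, b, c⟩ := h
  exact ⟨G, G', fun m => (a m).trans (e m m.2), fun m => (b m).trans (e' m m.2), c⟩

theorem hm_id (F : Set M) : Hm F id id := ⟨.id _, .id _, fun _ => rfl, fun _ => rfl, .refl _⟩

theorem Hm.maps (h : Hm F f f') : MapsTo f' F F := fun m hm => by
  obtain ⟨G, G', -, b, -⟩ := h
  exact b ⟨m, hm⟩ ▸ (G' ⟨m, hm⟩).2

theorem hm_of {H : I → M → M} (hc : Continuous fun p : I × F => H p.1 p.2)
    (hm : ∀ p, MapsTo (H p) F F) : Hm F (H 0) (H 1) := by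
  have c : Continuous fun p : I × F => (⟨H p.1 p.2, hm p.1 p.2.2⟩ : F) := hc.subtype_mk _
  exact ⟨⟨fun m => ⟨H 0 m, hm 0 m.2⟩, c.comp (Continuous.prodMk_right 0)⟩,
    ⟨fun m => ⟨H 1 m, hm 1 m.2⟩, c.comp (Continuous.prodMk_right 1)⟩, fun _ => rfl, fun _ => rfl,
    ⟨⟨⟨_, c⟩, fun _ => rfl, fun _ => rfl⟩⟩⟩

/-- the composite of the first `k` maps -/
def cp {n : ℕ} (g : Fin n → M → M) : ℕ → M → M
  | 0 => id
  | k + 1 => if h : k < n then g ⟨k, h⟩ ∘ cp g k else cp g k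

theorem cp_succ {n : ℕ} (g : Fin n → M → M) (k : Fin n) : cp g (k + 1) = g k ∘ cp g k := by
  rw [cp, dif_pos k.2]

theorem hm_cp {n : ℕ} {g : Fin n → M → M} (h : ∀ k, Hm F f (g k)) (k : ℕ) (hk : k ≤ n) :
    Hm F f^[k] (cp g k) := by
  induction k with
  | zero => exact hm_id F
  | succ k ih =>
    rw [Function.iterate_succ', cp_succ g ⟨k, hk⟩]
    exact (h _).comp (ih (Nat.le_of_succ_le hk))

variable {C : Type} [TopologicalSpace C] {B : At C} {n : ℕ} {l : Fin B.N → Fin B.N → ℂ → ℂ}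
  {q : Fin B.N → ℂ → ℂ[X]} {i i₀ : Fin B.N} {x : C} {s₀ w s : ℂ}

/-- admissible points of the spectral curve -/
def Ad (B : At C) (q : Fin B.N → ℂ → ℂ[X]) (x : C) (s₀ : ℂ) (i : Fin B.N) (w s : ℂ) : Prop :=
  w ∈ ball (0 : ℂ) B.R ∧ Smp (q i w) s ∧ ((B.e i).symm w = x → s = s₀)

/-- a family of self-maps of `F` over the admissible points -/
structure Fa (B : At C) (l : Fin B.N → Fin B.N → ℂ → ℂ) (q : Fin B.N → ℂ → ℂ[X]) (x : C) (s₀ : ℂ)
    (F : Set M) (g : Fin B.N → ℂ → ℂ → M → M) : Prop where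
  maps : ∀ i w s, Ad B q x s₀ i w s → MapsTo (g i w s) F F
  cont : ∀ (i) (w s : I → ℂ), Continuous w → Continuous s → (∀ p, Ad B q x s₀ i (w p) (s p)) →
    Continuous fun p : I × F => g i (w p.1) (s p.1) p.2
  inv : ∀ i j, ∀ z ∈ B.O i j, (B.e i).symm z ≠ x → ∀ t,
    g i z (l i j z * t) = g j (B.tr i j z) t

variable {G : Fin B.N → ℂ → ℂ → M → M} [T2Space C]

theorem Fa.loc (h : Fa B l q x s₀ F G) (ha : An n (q i) w) (a : Ad B q x s₀ i w s) :
    ∀ᶠ v : ℂ × ℂ in 𝓝 (w, s), Smp (q i v.1) v.2 → Hm F (G i w s) (G i v.1 v.2) := by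
  obtain ⟨τ, t1, t2, t3, t4⟩ := ha.ift a.2.1
  have e : ∀ᶠ v in 𝓝 w, v ≠ w → v ∈ P275MO.off B x i :=
    eventually_nhdsWithin_iff.1 (ev_ne' a.1 i x)
  obtain ⟨ε, e0, he⟩ := Metric.eventually_nhds_iff_ball.1 (t1.eventually_analyticAt.and (t3.and e))
  have ad : ∀ v ∈ ball w ε, Ad B q x s₀ i v (τ v) := fun v hv => by
    by_cases c : v = w
    · rw [c, t2]; exact a
    · exact ⟨((he v hv).2.2 c).1, (he v hv).2.1, fun d => (((he v hv).2.2 c).2 d).elim⟩
  filter_upwards [t4, continuousAt_fst.eventually (ball_mem_nhds w e0)] with v v1 v2 v3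
  have m : ∀ p : I, AffineMap.lineMap w v.1 (p : ℝ) ∈ ball w ε := fun p =>
    (convex_ball w ε).lineMap_mem (mem_ball_self e0) v2 p.2
  have c : Continuous fun p : I => AffineMap.lineMap w v.1 (p : ℝ) :=
    AffineMap.lineMap_continuous.comp continuous_subtype_val
  have := hm_of (H := fun p => G i (AffineMap.lineMap w v.1 (p : ℝ))
    (τ (AffineMap.lineMap w v.1 (p : ℝ)))) (h.cont i _ _ c (continuous_iff_continuousAt.2 fun p =>
      ContinuousAt.comp (f := fun p : I => AffineMap.lineMap w v.1 (p : ℝ))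
        (he _ (m p)).1.continuousAt c.continuousAt) fun p => ad _ (m p))
    fun p => h.maps i _ _ (ad _ (m p))
  simpa [t2, ← v1 v3.1] using this

/-- **all the maps of the family are homotopic** -/
theorem Fa.hm [PreconnectedSpace C] (h : Fa B l q x s₀ F G) {z₀ : ℂ} (S : Spc B n l q i₀ z₀)
    {j : Fin B.N} {w' s' : ℂ} (a : Ad B q x s₀ i w s) (a' : Ad B q x s₀ j w' s') :
    Hm F (G i w s) (G j w' s') := by
  have lc : ∀ {i w s}, Ad B q x s₀ i w s → ∀ᶠ v : ℂ × ℂ in 𝓝 (w, s), Smp (q i v.1) v.2 →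
      Hm F (G i v.1 v.2) = Hm F (G i w s) := fun a =>
    (h.loc (S.an _ _ a.1) a).mono fun _ b c => (b c).eq.symm
  have e := S.conn (Ψ := fun i w s => Hm F (G i w s)) (B := fun i w => (B.e i).symm w ≠ x)
    (fun i z hz => (ev_ne' hz i x).mono fun _ b => b.2)
    (fun i j z hz b t _ => by rw [h.inv i j z hz b t])
    (fun i z hz b t ht => lc ⟨hz, ht, fun c => (b c).elim⟩) a.1 a.2.1 a'.1 a'.2.1 (lc a) (lc a')
  have r : Hm F (G j w' s') (G j w' s') := (h.loc (S.an _ _ a'.1) a').self_of_nhds a'.2.1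
  exact e ▸ r

end Vale.Agent.P275HT
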